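import Vale.Agent.P226.Main

/-!
# The Gaussian propeller bound in every dimension, for every number of cells
-/

open MeasureTheory ProbabilityTheory

namespace Vale.Agent.Results.P226.Propeller

theorem result : ∀ (d k : ℕ) (A : Fin k → Set (EuclideanSpace ℝ (Fin d))),
    (∀ i, MeasurableSet (A i)) →
    (∀ i j, i ≠ j → stdGaussian (EuclideanSpace ℝ (Fin d)) (A i ∩ A j) = 0) →
    ∑ i, ‖∫ x in A i, x ∂stdGaussian (EuclideanSpace ℝ (Fin d))‖ ^ 2 ≤ 9 / (8 * Real.pi) :=
  Vale.Agent.P226.partition_bound_of (fun k d _ => Vale.Agent.P226.boundAt_every k d)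

end Vale.Agent.Results.P226.Propeller
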